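import Vale.Agent.P006.Fin

namespace Vale.Agent.Results.P006.Bound

open Vale.Agent.P006 Filter Asymptotics

theorem result : (fun X : ℝ => Stmt.firstMoment X -
    ((6 / 5 * Stmt.cstar * X ^ (5 / 6 : ℝ) / Real.log X : ℝ) : ℂ)) =O[atTop]
      (fun X : ℝ => X ^ (5 / 6 : ℝ) / Real.log X) := fin_main.isBigO

end Vale.Agent.Results.P006.Bound
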