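import Vale.Agent.P006.Fin

namespace Vale.Agent.Results.P006.Patterson

open Vale.Agent.P006 Filter Asymptotics

/-- Patterson's first moment asymptotic for cubic Gauss sums over primary primes -/
theorem result :
    (fun X : ℝ => Stmt.firstMoment X -
        ((6 / 5 * Stmt.cstar * X ^ (5 / 6 : ℝ) / Real.log X : ℝ) : ℂ)) =o[atTop]
      (fun X : ℝ => X ^ (5 / 6 : ℝ) / Real.log X) :=
  fin_main

end Vale.Agent.Results.P006.Patterson
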